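import Vale.Agent.Lib.P012.Final

/-- For every `b` with `log log b ≥ 100` and every `1 ≤ a < b`, the fraction `a / b` is a sum of at
most `24000 * log log b * log log log b` distinct unit fractions with denominators at least `2`. -/
theorem Vale.Agent.Results.P012.A_main.result :
    ∀ a b : ℕ, 100 ≤ Real.log (Real.log b) → 1 ≤ a → a < b →
      ∃ S : Finset ℕ, (∀ n ∈ S, 2 ≤ n) ∧
        (S.card : ℝ) ≤ 24000 * Real.log (Real.log b) * Real.log (Real.log (Real.log b)) ∧
        ∑ n ∈ S, (1 : ℚ) / n = (a : ℚ) / b :=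
  fun _ _ hb ha hab => Vale.Agent.Lib.P012.main_bound hb ha hab
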